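/-
Row 324 (S0582), PDE core, module AP (architect helper263), part A7 (BgDev), file Dev/TP:   PAIRS  (f, f_c)  =  (quantity of the reference background, its value on the exact cone).
      TP q D n f fc  :=   f, fc ∈ TS q D 0 n (wt 0 0 0)   and   f - fc ∈ TS q D 0 n (wt 1 8 0)         (only y-derivatives, m = 0;   wt 0 0 0 = 1,  wt 1 8 0 = 𝔍).
      The class is closed under +, -, *, constants and under the operator X ∂_y (which costs one derivative).
Tools: Core/AP/Cal (TS.add, sub, neg, mul_wt, const_mul, congr, of_le, le_wt, dY_wt, X_rh, yfun, const, one_wt, comp, inv; TY.of_ev_zero), PR/Sm.lean (dY_sub …), PR/Ph.lean (`ph1_mul`, `ph1_contDiff`).       q ≥ 100, D admissible (`DomOK D`).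

* `TS.congr_slice`:  (m = 0)  if the slices f(t,·), g(t,·) agree on [a,b] for every t = p.1, p ∈ D, and D ⊆ ℝ × [a,b], then dY^[j] f = dY^[j] g on D.      As `strip_dY`, `strip_iter` in Cal/Strip.lean but for a FIXED t:   claim by induction on j:  ∀ y ∈ Icc a b, dY^[j] f (t,y) = dY^[j] g (t,y)   (`Function.iterate_succ_apply'`;  step: two differentiable functions (`Sm.hasDerivAt_y` of `Sm.dY_iter`) which agree on Icc a b have the same derivative at every point of Icc a b: `uniqueDiffOn_Icc`, derivWithin).      dT^[0] f = f.      Then `Bd.congr`.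
* `ts_zero`:     the zero function is in every class (`TY.of_ev_zero`, `sm_const 0`).
* `TP.refl`:     f - f = 0 (`TS.congr` with `ts_zero`, sub_self).          `TP.const`, `TP.yfun`:  `TS.const`, `TS.yfun` + `TS.one_wt`.          `TP.X`:  X ∈ wt 0 0 1 ≤ K wt 0 0 0 … or `TS.yfun` with φ = Xf (smooth).
* `TP.of_small`: f ∈ wt 1 8 0 ≤ K wt 0 0 0 (`TS.le_wt`: da = 1, db = 8);   f - 0 = f.
* `TP.add/sub/neg/const_mul`:   (f+g) - (fc+gc) = (f-fc) + (g-gc)  etc.  (`TS.congr`, ring).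
* `TP.mul`:      f g - fc gc = (f - fc) g + fc (g - gc);    (1,8,0)+(0,0,0).
-/
import Claimed.Agent.R324.Core.AP.Cal.Wt
import Claimed.Agent.R324.Core.AP.Cal.Strip
import Claimed.Agent.R324.Core.AP.Cal.Comp
import Claimed.Agent.R324.Core.PR.Ph
import Claimed.Agent.R324.Core.AP.RDefs

set_option autoImplicit false

namespace Claimed.Agent.R324.Core

open Set Filter Topology
open scoped ContDiff

noncomputable section

-- The structure `TP q D n f fc` (fields `l : TS q D 0 n (wt q 0 0 0) f`, `r : TS q D 0 n (wt q 0 0 0) fc`, `d : TS q D 0 n (wt q 1 8 0) (fun p => f p - fc p)`) is defined in Core/AP/RDefs.lean.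

variable {q a b : ℝ} {D : Set (ℝ × ℝ)} {n n' : ℕ} {ϱ f g fc gc f' fc' : Fn}

theorem TS.congr_slice (hab : a < b) (hD : DomOK D) (hDs : ∀ p ∈ D, p.2 ∈ Icc a b) (hf : Sm f)
    (h : ∀ p ∈ D, ∀ y ∈ Icc a b, f (p.1, y) = g (p.1, y)) (hg : TS q D 0 n ϱ g) : TS q D 0 n ϱ f := by
  refine ⟨hf, ?_⟩
  intro i hi j hj
  obtain rfl : i = 0 := Nat.le_zero.mp hi
  refine Bd.congr (fun p hp => ?_) (hg.bd 0 le_rfl j hj)
  have ht : p.1 < 0 := (hD p hp).2.1
  have key : ∀ j : ℕ, ∀ y ∈ Icc a b, Core.dY^[j] f (p.1, y) = Core.dY^[j] g (p.1, y) := by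
    intro j
    induction j with
    | zero => exact h p hp
    | succ j ih =>
      intro y hy
      rw [Function.iterate_succ_apply', Function.iterate_succ_apply']
      have hu : UniqueDiffWithinAt ℝ (Icc a b) y := uniqueDiffOn_Icc hab y hy
      have h1 := (((hf.dY_iter j).hasDerivAt_y ht y).hasDerivWithinAt (s := Icc a b)).derivWithin hu
      have h2 := (((hg.sm.dY_iter j).hasDerivAt_y ht y).hasDerivWithinAt (s := Icc a b)).derivWithin hu
      have h3 : derivWithin (fun z => Core.dY^[j] f (p.1, z)) (Icc a b) y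
          = derivWithin (fun z => Core.dY^[j] g (p.1, z)) (Icc a b) y :=
        derivWithin_congr (fun z hz => ih z hz) (ih y hy)
      rw [← h1, ← h2, h3]
  exact key j p.2 (hDs p hp)

theorem ts_zero (q : ℝ) (D : Set (ℝ × ℝ)) (m n : ℕ) (ϱ : Fn) : TS q D m n ϱ (fun _ => 0) := by
  exact ⟨sm_const 0, TY.of_ev_zero (fun _ _ => Filter.EventuallyEq.rfl)⟩

theorem TP.of_le (hn : n' ≤ n) (h : TP q D n f fc) : TP q D n' f fc :=
  ⟨h.l.of_le le_rfl hn, h.r.of_le le_rfl hn, h.d.of_le le_rfl hn⟩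

theorem TP.refl (hD : DomOK D) (h : TS q D 0 n (wt q 0 0 0) f) : TP q D n f f := by
  exact ⟨h, h, TS.congr hD (fun t _ y => sub_self _) (ts_zero q D 0 n _)⟩

theorem TP.const (hD : DomOK D) (c : ℝ) : TP q D n (fun _ => c) (fun _ => c) := by
  exact TP.refl hD (TS.one_wt.1 (TS.const c))

theorem TP.yfun (hq : 100 ≤ q) (hD : DomOK D) {φ : ℝ → ℝ} (hφ : ContDiff ℝ ∞ φ) :
    TP q D n (fun p => φ p.2) (fun p => φ p.2) := by
  exact TP.refl hD (TS.one_wt.1 (TS.yfun hq hD hφ))

theorem TP.of_small (hq : 100 ≤ q) (hD : DomOK D) (h : TS q D 0 n (wt q 1 8 0) f) :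
    TP q D n f (fun _ => 0) := by
  refine ⟨TS.le_wt hq hD (Nat.zero_le _) le_rfl (by norm_num) h, ts_zero q D 0 n _, ?_⟩
  exact TS.congr hD (fun t _ y => sub_zero _) h

theorem TP.add (hD : DomOK D) (h1 : TP q D n f fc) (h2 : TP q D n g gc) :
    TP q D n (fun p => f p + g p) (fun p => fc p + gc p) := by
  refine ⟨TS.add hD h1.l h2.l, TS.add hD h1.r h2.r, ?_⟩
  exact TS.congr hD (fun t _ y => by ring) (TS.add hD h1.d h2.d)

theorem TP.sub (hD : DomOK D) (h1 : TP q D n f fc) (h2 : TP q D n g gc) :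
    TP q D n (fun p => f p - g p) (fun p => fc p - gc p) := by
  refine ⟨TS.sub hD h1.l h2.l, TS.sub hD h1.r h2.r, ?_⟩
  exact TS.congr hD (fun t _ y => by ring) (TS.sub hD h1.d h2.d)

theorem TP.neg (hD : DomOK D) (h1 : TP q D n f fc) : TP q D n (fun p => -f p) (fun p => -fc p) := by
  refine ⟨TS.neg hD h1.l, TS.neg hD h1.r, ?_⟩
  exact TS.congr hD (fun t _ y => by ring) (TS.neg hD h1.d)

theorem TP.const_mul (hD : DomOK D) (c : ℝ) (h1 : TP q D n f fc) :
    TP q D n (fun p => c * f p) (fun p => c * fc p) := by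
  refine ⟨TS.const_mul hD c h1.l, TS.const_mul hD c h1.r, ?_⟩
  exact TS.congr hD (fun t _ y => by ring) (TS.const_mul hD c h1.d)

theorem TP.mul (hq : 100 ≤ q) (hD : DomOK D) (h1 : TP q D n f fc) (h2 : TP q D n g gc) :
    TP q D n (fun p => f p * g p) (fun p => fc p * gc p) := by
  refine ⟨TS.mul_wt hq hD h1.l h2.l, TS.mul_wt hq hD h1.r h2.r, ?_⟩
  have e1 : TS q D 0 n (wt q 1 8 0) (fun p => (f p - fc p) * g p) := TS.mul_wt hq hD h1.d h2.l
  have e2 : TS q D 0 n (wt q 1 8 0) (fun p => fc p * (g p - gc p)) := TS.mul_wt hq hD h1.r h2.d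
  exact TS.congr hD (fun t _ y => by ring) (TS.add hD e1 e2)

end

end Claimed.Agent.R324.Core
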