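/-
Row 324 (S0582), PDE core, module AP (architect helper263), part A7 (BgDev), file Dev/TP2 (second half of the calculus; first half and the definition: Dev/TP.lean):   PAIRS  (f, f_c)  =  (quantity of the reference background, its value on the exact cone).
      TP q D n f fc  :=   f, fc ∈ TS q D 0 n (wt 0 0 0)   and   f - fc ∈ TS q D 0 n (wt 1 8 0)         (only y-derivatives, m = 0;   wt 0 0 0 = 1,  wt 1 8 0 = 𝔍).
      The class is closed under +, -, *, constants and under the operator X ∂_y (which costs one derivative).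
Tools: Core/AP/Cal (TS.add, sub, neg, mul_wt, const_mul, congr, of_le, le_wt, dY_wt, X_rh, yfun, const, one_wt, comp, inv; TY.of_ev_zero), PR/Sm.lean (dY_sub …), PR/Ph.lean (`ph1_mul`, `ph1_contDiff`).       q ≥ 100, D admissible (`DomOK D`).

* `TP.XdY`:      X ∈ wt 0 0 1,  dY f ∈ wt 0 0 (-1) (`TS.dY_wt`),  product wt 0 0 0;     X dY f - X dY fc = X dY (f - fc) for t < 0 (`dY_sub`), dY (f - fc) ∈ wt 1 8 (-1).
* `TP.exp_small`: exp f - 1 = f Ph1(-f)   (`ph1_mul (-f)`:  -f Ph1(-f) = 1 - exp f);    Ph1(-f), exp f ∈ TS 1 by `TS.comp` (f ∈ wt 0 0 0).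
* `TP.inv_small`: 1/(1+G) ∈ TS 1 by `TS.inv` (ϱ = 1, lower bound c, nonvanishing);    1/(1+G) - 1 = -G * (1/(1+G))  (1+G ≠ 0 for t < 0).
* `TP.congr_slice`:  replace f, fc by functions which agree with them on the slices (`TS.congr_slice` three times; the difference agrees as well).
* `TP.dev`:      if fc = c on the slices then f - c agrees with f - fc on the slices:  `TS.congr_slice`.
-/
import Claimed.Agent.R324.Core.AP.Dev.TP

set_option autoImplicit false

namespace Claimed.Agent.R324.Core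

open Set Filter Topology
open scoped ContDiff

noncomputable section

variable {q a b : ℝ} {D : Set (ℝ × ℝ)} {n n' : ℕ} {ϱ f g fc gc f' fc' : Fn}

theorem TP.XdY (hq : 100 ≤ q) (hD : DomOK D) (h : TP q D (n + 1) f fc) :
    TP q D n (fun p => Xf p.2 * dY f p) (fun p => Xf p.2 * dY fc p) := by
  have hX : TS q D 0 n (wt q 0 0 1) (fun p => Xf p.2) := TS.X_rh hq hD
  have e0 : wt q (0 + 0) (0 + 0) (1 + (0 - 1)) = wt q 0 0 0 := by norm_num
  have e1 : wt q (0 + 1) (0 + 8) (1 + (0 - 1)) = wt q 1 8 0 := by norm_num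
  refine ⟨?_, ?_, ?_⟩
  · have := TS.mul_wt hq hD hX (TS.dY_wt hq hD h.l)
    rw [e0] at this
    exact this
  · have := TS.mul_wt hq hD hX (TS.dY_wt hq hD h.r)
    rw [e0] at this
    exact this
  · have := TS.mul_wt hq hD hX (TS.dY_wt hq hD h.d)
    rw [e1] at this
    refine TS.congr hD ?_ this
    intro t ht y
    show Xf y * dY f (t, y) - Xf y * dY fc (t, y) = Xf y * dY (fun p => f p - fc p) (t, y)
    rw [dY_sub h.l.sm h.r.sm ht y]
    ring

theorem TP.exp_small (hq : 100 ≤ q) (hD : DomOK D) (h : TS q D 0 n (wt q 1 8 0) f) :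
    TP q D n (fun p => Real.exp (f p)) (fun _ => 1) := by
  have hf0 : TS q D 0 n (wt q 0 0 0) f :=
    TS.le_wt hq hD (by norm_num) (by norm_num) (by norm_num) h
  have hf1 : TS q D 0 n (fun _ => 1) f := TS.one_wt.mpr hf0
  have hexp : TS q D 0 n (fun _ => 1) (fun p => Real.exp (f p)) :=
    TS.comp hD Real.contDiff_exp hf1
  have hneg : TS q D 0 n (fun _ => 1) (fun p => -f p) := TS.neg hD hf1
  have hph : TS q D 0 n (fun _ => 1) (fun p => Ph1 (-f p)) := TS.comp hD ph1_contDiff hneg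
  have e1 : wt q (1 + 0) (8 + 0) (0 + 0) = wt q 1 8 0 := by norm_num
  refine ⟨TS.one_wt.mp hexp, TS.one_wt.mp (TS.const 1), ?_⟩
  have := TS.mul_wt hq hD h (TS.one_wt.mp hph)
  rw [e1] at this
  refine TS.congr hD ?_ this
  intro t _ y
  show Real.exp (f (t, y)) - 1 = f (t, y) * Ph1 (-f (t, y))
  rw [ph1_neg_mul]

theorem TP.inv_small (hq : 100 ≤ q) (hD : DomOK D) (h : TS q D 0 n (wt q 1 8 0) f)
    (h0 : ∀ t < 0, ∀ y, 1 + f (t, y) ≠ 0) {c : ℝ} (hc : 0 < c) (hlow : ∀ p ∈ D, c ≤ 1 + f p) :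
    TP q D n (fun p => 1 / (1 + f p)) (fun _ => 1) := by
  have hf0 : TS q D 0 n (wt q 0 0 0) f :=
    TS.le_wt hq hD (by norm_num) (by norm_num) (by norm_num) h
  have hf1 : TS q D 0 n (fun _ => 1) f := TS.one_wt.mpr hf0
  have h1f : TS q D 0 n (fun _ => 1) (fun p => 1 + f p) := TS.add hD (TS.const 1) hf1
  have hinv : TS q D 0 n (fun _ => 1 / (1 : ℝ)) (fun p => (1 + f p)⁻¹) :=
    TS.inv hD h0 h1f hc (fun _ _ => one_pos) (fun p hp => by
      have := hlow p hp
      simpa using this)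
  have hinv1 : TS q D 0 n (fun _ => 1) (fun p => (1 + f p)⁻¹) :=
    TS.congr_wt (fun _ _ => by norm_num) hinv
  have hinv2 : TS q D 0 n (fun _ => 1) (fun p => 1 / (1 + f p)) :=
    TS.congr hD (fun t _ y => by
      show 1 / (1 + f (t, y)) = (1 + f (t, y))⁻¹
      rw [one_div]) hinv1
  have e1 : wt q (1 + 0) (8 + 0) (0 + 0) = wt q 1 8 0 := by norm_num
  refine ⟨TS.one_wt.mp hinv2, TS.one_wt.mp (TS.const 1), ?_⟩
  have := TS.mul_wt hq hD (TS.neg hD h) (TS.one_wt.mp hinv2)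
  rw [e1] at this
  refine TS.congr hD ?_ this
  intro t ht y
  show 1 / (1 + f (t, y)) - 1 = -f (t, y) * (1 / (1 + f (t, y)))
  have hne := h0 t ht y
  field_simp
  ring

theorem TP.congr_slice (hab : a < b) (hD : DomOK D) (hDs : ∀ p ∈ D, p.2 ∈ Icc a b) (hf : Sm f')
    (hfc : Sm fc') (h1 : ∀ p ∈ D, ∀ y ∈ Icc a b, f' (p.1, y) = f (p.1, y))
    (h2 : ∀ p ∈ D, ∀ y ∈ Icc a b, fc' (p.1, y) = fc (p.1, y)) (h : TP q D n f fc) :
    TP q D n f' fc' := by
  refine ⟨TS.congr_slice hab hD hDs hf h1 h.l, TS.congr_slice hab hD hDs hfc h2 h.r,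
    TS.congr_slice hab hD hDs (hf.sub hfc) ?_ h.d⟩
  intro p hp y hy
  show f' (p.1, y) - fc' (p.1, y) = f (p.1, y) - fc (p.1, y)
  rw [h1 p hp y hy, h2 p hp y hy]

theorem TP.dev (hab : a < b) (hD : DomOK D) (hDs : ∀ p ∈ D, p.2 ∈ Icc a b) (c : ℝ)
    (h2 : ∀ p ∈ D, ∀ y ∈ Icc a b, fc (p.1, y) = c) (h : TP q D n f fc) :
    TS q D 0 n (wt q 1 8 0) (fun p => f p - c) := by
  refine TS.congr_slice hab hD hDs (h.l.sm.sub (sm_const c)) ?_ h.d
  intro p hp y hy
  show f (p.1, y) - c = f (p.1, y) - fc (p.1, y)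
  rw [h2 p hp y hy]

end

end Claimed.Agent.R324.Core
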