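/-
Row 324 (S0582), PDE core, module AP (architect helper263), part A7 (BgDev), file Dev/Prim:   THE REGULAR PRIMITIVES OF THE REFERENCE BACKGROUND versus THEIR CONE VALUES.
      gt = a background (in the application bgR q (bgA q w z)),   D ⊆ [-1,0) × [19/20,1]  (`DomOK D`, `DomC D`).       Pairs TP: Dev/TP.lean, Dev/TP2.lean.
      INPUT `DevRep` (supplied by AP-R):   functions Ω, G₁ ∈ TS 0 (n+2) (wt 1 8 0) with, on the slices y ∈ [19/20,1] of the points of D,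
                     gt.w = w_tip - Ω,            1 + X gt.B = (y²/z₀)(1 + G₁),            and   gt.W ∈ TS 0 (n+1) (wt 1 7 0).
      OUTPUT (cone values on the right):
          X B ↔ y²/z₀ - 1,      Z ↔ z₀ (2 psY2 y)  (= z₀/y² for y ≥ 19/20),      X 𝖽 ↔ 2yX/z₀,      X² B' ↔ 2yX/z₀ + 2y (y²/z₀ - 1),
          X w' ↔ -2y,           X² w'' ↔ -2X - 4y²,           X e^{-w} ↔ q-1,           X W ↔ 0.
Slices:  use `TP.congr_slice` / `TS.congr_slice` with a = 19/20, b = 1.      psY2 y = ψ₁(y)/(2y²) (Defs.lean), `psY2_contDiff` (TipF), ψ₁ = 1 on [19/20,1] (`psi1_eq_one`).      D is northern: `DomC.domN`.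

* `prim_XB`:   pair for  H = (y²/z₀)(1 + G₁) - 1:   `TP.yfun` (φ y = y²/z₀), `TP.of_small` G₁, `TP.const`, `TP.add/mul/sub`:  cone value (y²/z₀)(1+0) - 1;   then `TP.congr_slice` (X gt.B = H on slices by `repB`;  Sm: `sm_Xf.mul sm.smB`).
* `prim_Z`:    Z = 1/(1 + X B) = (z₀/y²) (1/(1+G₁)) on slices;   `TP.inv_small`, `TP.yfun` (φ y = z₀ (2 psY2 y)), `TP.mul`;   cone value φ * 1.
* `prim_Xdd`:  `TP.XdY prim_XB`:   X dY (X B) = X 𝖽 by definition of `Bg.dd`;    X dY (y²/z₀ - 1) = X (2y/z₀)  for all points (`dY_of_hasDerivAt`…): replace by `TP.congr_slice` or a `TP.congr`.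
* `prim_XXBp`: 𝖽 = dY (X B) = -2y B + X B' (`dY_mul`, `dY_Xf`; t < 0), so X² B' = X 𝖽 + 2y (X B):   `TP.add prim_Xdd (TP.mul (yfun 2y) prim_XB)`.
* `prim_Xwp`:  on slices gt.w = w_tip - Ω, hence (closed slices, `strip_dY`-type argument as in `TS.congr_slice`, or apply `TS.congr_slice` to the functions X dY gt.w …) simplest route:
                  the function  A := X dY (w_tip) - X dY Ω  is Sm and  X gt.wp = A on slices  [derivatives of functions which agree on a closed interval agree there];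
                  X dY w_tip = -y (th w)(Ξ) + X dY u = -2y + y J(Ξ) + X dY u   for all t < 0, y   (`BP.dY_wtip` (TipG) / `dY_cmp` (Res/JetV);  J = 2 - th w);       y J(Ξ) ∈ wt 1 8 0 (`ts_J_c`, Res/TsB),   X dY u ∈ (0,0,1)+(1,7,0) = wt 1 7 1 ≤ K wt 1 8 0 (`ts_dY_uWF`, `TS.le_wt`: da = 0, db = -1, dc = 1),   X dY Ω ∈ (0,0,1)+(1,8,-1).
                  So X gt.wp = -2y + (small):   `TP.add (TP.yfun) (TP.of_small …)`.
* `prim_XXwpp`: X dY (X w') = -2y (X w') + X² w''   (`dY_mul`), so X² w'' = X dY (X w') + 2y (X w'):   `TP.XdY prim_Xwp`, cone value X dY (-2y) + 2y (-2y) = -2X - 4y².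
* `prim_Xew`:  X e^{-gt.w} = X e^{-w_tip} e^{Ω} = P(Ξ) e^{-u} e^{Ω}  on slices (`BP.X_exp_wtip`, Res/Id.lean);    P(Ξ) ↔ q-1 (`ts_P`, `ts_P_sub`: build the TP by hand ⟨ts_P, const, ts_P_sub⟩),   e^{-u} ↔ 1, e^{Ω} ↔ 1 (`TP.exp_small`; -u ∈ wt 1 8 0).
* `prim_XW`:   X ∈ wt 0 0 1, W ∈ wt 1 7 0:  wt 1 7 1 ≤ K wt 1 8 0;  `TP.of_small`.
-/
import Claimed.Agent.R324.Core.AP.Dev.TP2
import Claimed.Agent.R324.Core.AP.Res.Id
import Claimed.Agent.R324.Core.AP.Res.TsB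
import Claimed.Agent.R324.Core.PR.SmBg

set_option autoImplicit false

namespace Claimed.Agent.R324.Core

open Set Filter Topology
open scoped ContDiff

noncomputable section

/-- domains in the northern cap `19/20 ≤ y`. -/
def DomC (D : Set (ℝ × ℝ)) : Prop := ∀ p ∈ D, 19 / 20 ≤ p.2

/-- the representation of the reference background on the northern cap. -/
structure DevRep (q : ℕ) (w : ℝ → ℝ) (gt : Bg) (D : Set (ℝ × ℝ)) (n : ℕ) (Ω G₁ : Fn) : Prop where
  sm : BgSm gt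
  tsΩ : TS q D 0 (n + 2) (wt q 1 8 0) Ω
  tsG : TS q D 0 (n + 2) (wt q 1 8 0) G₁
  posG : ∀ t < 0, ∀ y, 1 + G₁ (t, y) ≠ 0
  lowG : ∃ c : ℝ, 0 < c ∧ ∀ p ∈ D, c ≤ 1 + G₁ p
  tsW : TS q D 0 (n + 1) (wt q 1 7 0) gt.W
  repw : ∀ p ∈ D, ∀ y ∈ Icc (19 / 20 : ℝ) 1, gt.w (p.1, y) = wtip q w (p.1, y) - Ω (p.1, y)
  repB : ∀ p ∈ D, ∀ y ∈ Icc (19 / 20 : ℝ) 1,
    1 + Xf y * gt.B (p.1, y) = y ^ 2 / z0F q * (1 + G₁ (p.1, y))

/-- hygiene. -/
theorem core_ap_dev_prim_hygiene : True := by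
  have := @DomC.eq_1
  trivial

variable {q : ℕ} {w z : ℝ → ℝ} {gt : Bg} {D : Set (ℝ × ℝ)} {n : ℕ} {Ω G₁ : Fn}

theorem DomC.domN (hC : DomC D) : DomN D := fun p hp => by
  have := hC p hp
  linarith

theorem DomC.mem (hD : DomOK D) (hC : DomC D) : ∀ p ∈ D, p.2 ∈ Icc (19 / 20 : ℝ) 1 :=
  fun p hp => ⟨hC p hp, (hD p hp).2.2.2⟩

/-- (aux) two smooth functions whose slices at time `t` agree on `[a,b]` have the same `y`-derivative there. -/
theorem ap_prim_slice_dY {a b t : ℝ} {f g : Fn} (hab : a < b) (hf : Sm f) (hg : Sm g) (ht : t < 0)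
    (h : ∀ y ∈ Icc a b, f (t, y) = g (t, y)) : ∀ y ∈ Icc a b, dY f (t, y) = dY g (t, y) := by
  intro y hy
  have hu : UniqueDiffWithinAt ℝ (Icc a b) y := uniqueDiffOn_Icc hab y hy
  have h1 := ((hf.hasDerivAt_y ht y).hasDerivWithinAt (s := Icc a b)).derivWithin hu
  have h2 := ((hg.hasDerivAt_y ht y).hasDerivWithinAt (s := Icc a b)).derivWithin hu
  have h3 : derivWithin (fun z => f (t, z)) (Icc a b) y = derivWithin (fun z => g (t, z)) (Icc a b) y :=
    derivWithin_congr (fun z hz => h z hz) (h y hy)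
  rw [← h1, ← h2, h3]

theorem ap_prim_ab : (19 / 20 : ℝ) < 1 := by norm_num

theorem ap_prim_z0_ne (h : BP q w z) : z0F q ≠ 0 := (ap_tsB_z0_pos h.hqR).ne'

theorem BP.prim_XB (h : BP q w z) (hD : DomOK D) (hC : DomC D) (hr : DevRep q w gt D n Ω G₁) :
    TP q D (n + 2) (fun p => Xf p.2 * gt.B p) (fun p => p.2 ^ 2 / z0F q - 1) := by
  have hq := h.hqR
  have hφ : ContDiff ℝ ∞ (fun y : ℝ => y ^ 2 / z0F q) := (contDiff_id.pow 2).div_const _
  have hy : TP q D (n + 2) (fun p => p.2 ^ 2 / z0F q) (fun p => p.2 ^ 2 / z0F q) :=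
    TP.yfun hq hD hφ
  have hG : TP q D (n + 2) G₁ (fun _ => 0) := TP.of_small hq hD hr.tsG
  have h1 := TP.add hD (TP.const (q := q) (n := n + 2) hD 1) hG
  have h3 := TP.sub hD (TP.mul hq hD hy h1) (TP.const (q := q) (n := n + 2) hD 1)
  refine TP.congr_slice ap_prim_ab hD (DomC.mem hD hC) (sm_Xf.mul hr.sm.smB)
    ((sm_of_y hφ).sub (sm_const 1)) (fun p hp y hy => ?_) (fun p hp y hy => ?_) h3
  · have := hr.repB p hp y hy
    show Xf y * gt.B (p.1, y) = y ^ 2 / z0F q * (1 + G₁ (p.1, y)) - 1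
    linarith
  · show y ^ 2 / z0F q - 1 = y ^ 2 / z0F q * (1 + 0) - 1
    ring

theorem BP.prim_Z (h : BP q w z) (hD : DomOK D) (hC : DomC D) (hr : DevRep q w gt D n Ω G₁) :
    TP q D (n + 2) gt.Z (fun p => z0F q * (2 * psY2 p.2)) := by
  have hq := h.hqR
  obtain ⟨c, hc, hlow⟩ := hr.lowG
  have hφ : ContDiff ℝ ∞ (fun y : ℝ => z0F q * (2 * psY2 y)) :=
    contDiff_const.mul (contDiff_const.mul psY2_contDiff)
  have hy : TP q D (n + 2) (fun p => z0F q * (2 * psY2 p.2)) (fun p => z0F q * (2 * psY2 p.2)) :=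
    TP.yfun hq hD hφ
  have hi := TP.inv_small hq hD hr.tsG hr.posG hc hlow
  have h3 := TP.mul hq hD hy hi
  refine TP.congr_slice ap_prim_ab hD (DomC.mem hD hC) hr.sm.smZ (sm_of_y hφ)
    (fun p hp y hy => ?_) (fun p hp y hy => ?_) h3
  · have e := hr.repB p hp y hy
    have ht : p.1 < 0 := (hD p hp).2.1
    have hG0 := hr.posG p.1 ht y
    have hy0 : y ≠ 0 := by
      have := hy.1
      intro h0
      rw [h0] at this
      norm_num at this
    have hz0 := ap_prim_z0_ne h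
    show 1 / (1 + Xf y * gt.B (p.1, y)) = z0F q * (2 * psY2 y) * (1 / (1 + G₁ (p.1, y)))
    rw [e]
    unfold psY2
    rw [psi1_eq_one hy.1]
    field_simp
  · show z0F q * (2 * psY2 y) = z0F q * (2 * psY2 y) * 1
    ring

theorem BP.prim_Xdd (h : BP q w z) (hD : DomOK D) (hC : DomC D) (hr : DevRep q w gt D n Ω G₁) :
    TP q D (n + 1) (fun p => Xf p.2 * gt.dd p) (fun p => 2 * p.2 * Xf p.2 / z0F q) := by
  have hq := h.hqR
  have h1 := TP.XdY (n := n + 1) hq hD (h.prim_XB hD hC hr)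
  have e : (fun p : ℝ × ℝ => Xf p.2 * dY (fun p => p.2 ^ 2 / z0F q - 1) p)
      = fun p => 2 * p.2 * Xf p.2 / z0F q := by
    funext p
    obtain ⟨t, y⟩ := p
    have hd : HasDerivAt (fun z : ℝ => z ^ 2 / z0F q - 1) (2 * y / z0F q) y := by
      have := ((hasDerivAt_pow 2 y).div_const (z0F q)).sub_const 1
      simpa using this
    have e1 : dY (fun p : ℝ × ℝ => p.2 ^ 2 / z0F q - 1) (t, y) = 2 * y / z0F q :=
      dY_of_hasDerivAt hd
    rw [e1]
    ring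
  rw [e] at h1
  exact h1

theorem BP.prim_XXBp (h : BP q w z) (hD : DomOK D) (hC : DomC D) (hr : DevRep q w gt D n Ω G₁) :
    TP q D (n + 1) (fun p => Xf p.2 ^ 2 * gt.Bp p)
      (fun p => 2 * p.2 * Xf p.2 / z0F q + 2 * p.2 * (p.2 ^ 2 / z0F q - 1)) := by
  have hq := h.hqR
  have hφ : ContDiff ℝ ∞ (fun y : ℝ => 2 * y) := contDiff_const.mul contDiff_id
  have hy : TP q D (n + 1) (fun p => 2 * p.2) (fun p => 2 * p.2) := TP.yfun hq hD hφ
  have h3 := TP.add hD (h.prim_Xdd hD hC hr)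
    (TP.mul hq hD hy ((h.prim_XB hD hC hr).of_le (Nat.le_succ _)))
  refine TP.congr_slice ap_prim_ab hD (DomC.mem hD hC) ((sm_Xf.pow 2).mul hr.sm.smBp) h3.r.sm
    (fun p hp y hy => ?_) (fun p hp y hy => rfl) h3
  have ht : p.1 < 0 := (hD p hp).2.1
  have e : gt.dd (p.1, y) = -2 * y * gt.B (p.1, y) + Xf y * gt.Bp (p.1, y) := by
    have := dY_mul sm_Xf hr.sm.smB ht y
    rw [dY_Xf] at this
    exact this
  show Xf y ^ 2 * gt.Bp (p.1, y) = Xf y * gt.dd (p.1, y) + 2 * y * (Xf y * gt.B (p.1, y))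
  rw [e]
  ring

theorem BP.prim_Xwp (h : BP q w z) (hD : DomOK D) (hC : DomC D) (hr : DevRep q w gt D n Ω G₁) :
    TP q D (n + 1) (fun p => Xf p.2 * gt.wp p) (fun p => -2 * p.2) := by
  have hq := h.hqR
  have hN := hC.domN
  have hφ : ContDiff ℝ ∞ (fun y : ℝ => -2 * y) := contDiff_const.mul contDiff_id
  have hy : TP q D (n + 1) (fun p => -2 * p.2) (fun p => -2 * p.2) := TP.yfun hq hD hφ
  have hid : TS q D 0 (n + 1) (wt q 0 0 0) (fun p => p.2) :=
    TS.one_wt.1 (TS.yfun (φ := fun y => y) hq hD contDiff_id)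
  have s1 : TS q D 0 (n + 1) (wt q 1 8 0) (fun p => p.2 * bJ w (XiF q p)) := by
    have := TS.mul_wt hq hD hid (h.ts_J_c (D := D) (m := 0) (n := n + 1) hD hN (by norm_num))
    norm_num at this
    exact this
  have s2 : TS q D 0 (n + 1) (wt q 1 8 0) (fun p => Xf p.2 * dY (uWF q w) p) := by
    have := TS.mul_wt hq hD (TS.X_rh (m := 0) (n := n + 1) hq hD)
      (h.ts_dY_uWF (D := D) (m := 0) (n := n + 1) hD hN (by norm_num))
    norm_num at this
    exact TS.le_wt (a := 1) (a' := 1) (b := 8) (b' := 7) (c := 0) (c' := 1) hq hD le_rfl (by norm_num)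
      (by norm_num) this
  have s3 : TS q D 0 (n + 1) (wt q 1 8 0) (fun p => Xf p.2 * dY Ω p) := by
    have := TS.mul_wt hq hD (TS.X_rh (m := 0) (n := n + 1) hq hD) (TS.dY_wt hq hD hr.tsΩ)
    norm_num at this
    exact this
  have h3 := TP.add hD hy (TP.of_small hq hD (TS.sub hD (TS.add hD s1 s2) s3))
  refine TP.congr_slice ap_prim_ab hD (DomC.mem hD hC) (sm_Xf.mul hr.sm.smwp) (sm_of_y hφ)
    (fun p hp y hy => ?_) (fun p hp y hy => ?_) h3
  · have ht : p.1 < 0 := (hD p hp).2.1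
    have e1 : dY gt.w (p.1, y) = dY (fun p => wtip q w p - Ω p) (p.1, y) :=
      ap_prim_slice_dY ap_prim_ab hr.sm.smw (h.sm_wtip.sub hr.tsΩ.sm) ht
        (fun y' hy' => hr.repw p hp y' hy') y hy
    have e2 := dY_sub h.sm_wtip hr.tsΩ.sm ht y
    have e3 := h.ap_jv_dY_wtip ht y
    have e4 := dY_cmp (q : ℝ) h.bohm.smw ht y
    show Xf y * dY gt.w (p.1, y) = -2 * y + (y * bJ w (XiF q (p.1, y)) + Xf y * dY (uWF q w) (p.1, y)
      - Xf y * dY Ω (p.1, y))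
    rw [e1, e2, e3]
    unfold bJ
    linear_combination e4
  · show -2 * y = -2 * y + 0
    ring

theorem BP.prim_XXwpp (h : BP q w z) (hD : DomOK D) (hC : DomC D) (hr : DevRep q w gt D n Ω G₁) :
    TP q D n (fun p => Xf p.2 ^ 2 * gt.wpp p) (fun p => -2 * Xf p.2 - 4 * p.2 ^ 2) := by
  have hq := h.hqR
  have hφ : ContDiff ℝ ∞ (fun y : ℝ => 2 * y) := contDiff_const.mul contDiff_id
  have hy : TP q D n (fun p => 2 * p.2) (fun p => 2 * p.2) := TP.yfun hq hD hφ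
  have h3 := TP.add hD (TP.XdY (n := n) hq hD (h.prim_Xwp hD hC hr))
    (TP.mul hq hD hy ((h.prim_Xwp hD hC hr).of_le (Nat.le_succ _)))
  refine TP.congr_slice ap_prim_ab hD (DomC.mem hD hC) ((sm_Xf.pow 2).mul hr.sm.smwpp)
    ((sm_Xf.const_mul (-2)).sub ((sm_snd.pow 2).const_mul 4))
    (fun p hp y hy => ?_) (fun p hp y hy => ?_) h3
  · have ht : p.1 < 0 := (hD p hp).2.1
    have e : dY (fun p => Xf p.2 * gt.wp p) (p.1, y)
        = -2 * y * gt.wp (p.1, y) + Xf y * gt.wpp (p.1, y) := by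
      have := dY_mul sm_Xf hr.sm.smwp ht y
      rw [dY_Xf] at this
      exact this
    show Xf y ^ 2 * gt.wpp (p.1, y) = Xf y * dY (fun p => Xf p.2 * gt.wp p) (p.1, y)
      + 2 * y * (Xf y * gt.wp (p.1, y))
    rw [e]
    ring
  · have hd : HasDerivAt (fun z : ℝ => -2 * z) (-2) y := by
      simpa using (hasDerivAt_id y).const_mul (-2 : ℝ)
    have e1 : dY (fun p : ℝ × ℝ => -2 * p.2) (p.1, y) = -2 := dY_of_hasDerivAt hd
    show -2 * Xf y - 4 * y ^ 2 = Xf y * dY (fun p : ℝ × ℝ => -2 * p.2) (p.1, y) + 2 * y * (-2 * y)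
    rw [e1]
    ring

theorem BP.prim_Xew (h : BP q w z) (hD : DomOK D) (hC : DomC D) (hr : DevRep q w gt D n Ω G₁) :
    TP q D (n + 2) (fun p => Xf p.2 * Real.exp (-gt.w p)) (fun _ => (q : ℝ) - 1) := by
  have hq := h.hqR
  have hN := hC.domN
  have hP : TP q D (n + 2) (fun p => bP w (XiF q p)) (fun _ => (q : ℝ) - 1) :=
    ⟨h.ts_P hD hN (by norm_num), TS.one_wt.1 (TS.const _), h.ts_P_sub hD hN (by norm_num)⟩
  have hu := TP.exp_small hq hD
    (TS.neg hD (h.ts_uWF (D := D) (m := 0) (n := n + 2) hD hN (by norm_num)))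
  have hO := TP.exp_small hq hD hr.tsΩ
  have h3 := TP.mul hq hD (TP.mul hq hD hP hu) hO
  refine TP.congr_slice ap_prim_ab hD (DomC.mem hD hC) (sm_Xf.mul hr.sm.smw.neg.exp) (sm_const _)
    (fun p hp y hy => ?_) (fun p hp y hy => ?_) h3
  · have ht : p.1 < 0 := (hD p hp).2.1
    have e1 := hr.repw p hp y hy
    have e2 := h.X_exp_wtip ht y
    show Xf y * Real.exp (-gt.w (p.1, y))
      = bP w (XiF q (p.1, y)) * Real.exp (-uWF q w (p.1, y)) * Real.exp (Ω (p.1, y))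
    rw [← e2, e1, mul_assoc, ← Real.exp_add]
    congr 2
    ring
  · show (q : ℝ) - 1 = ((q : ℝ) - 1) * 1 * 1
    ring

theorem BP.prim_XW (h : BP q w z) (hD : DomOK D) (hC : DomC D) (hr : DevRep q w gt D n Ω G₁) :
    TP q D (n + 1) (fun p => Xf p.2 * gt.W p) (fun _ => 0) := by
  have hq := h.hqR
  have := TS.mul_wt hq hD (TS.X_rh (m := 0) (n := n + 1) hq hD) hr.tsW
  norm_num at this
  exact TP.of_small hq hD
    (TS.le_wt (a := 1) (a' := 1) (b := 8) (b' := 7) (c := 0) (c' := 1) hq hD le_rfl (by norm_num)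
      (by norm_num) this)

end

end Claimed.Agent.R324.Core
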