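/-
Row 324 (S0582), PDE core, module AP (architect helper263), part A7 (BgDev), file Dev/Ent0:   the bundle `PrimP` of the eight pairs of Dev/Prim.lean and the generic step  "pair ⟹ deviation of an entry from its cone constant".
      a = X w',  b = X² w'',  Dd = X 𝖽,  β = X B,  β' = X² B',  e = X e^{-w},  ω = X W,  Z.          Pairs TP: Core/AP/RDefs.lean (structure), Dev/TP.lean, Dev/TP2.lean (calculus).

* `BP.primP`:   the eight lemmas of Dev/Prim.lean + `TP.of_le` (n ≤ n+1, n+2).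
* `TP.ent`:     E = P for t < 0,   P ↔ Pc a pair,   Pc = c on the slices y ∈ [19/20,1]   ⟹   E - c ∈ TS 0 n 𝔍:      `TS.congr hD (…) (TP.dev (by norm_num) hD (hC.mem hD) c (…) hP)`.
* `psY2_cap`:   2 psY2 y = 1/y² for y ∈ [19/20,1]   (unfold psY2;  `psi1_eq_one`;  field_simp).
* `TP.X`, `TP.y`:   the pairs (X, X), (y, y)  (`TP.yfun` with φ = Xf (`contDiff`: unfold Xf; fun_prop), φ = id).
-/
import Claimed.Agent.R324.Core.AP.Dev.Prim

set_option autoImplicit false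

namespace Claimed.Agent.R324.Core

open Set Filter Topology
open scoped ContDiff

noncomputable section

/-- the eight pairs (regular primitive of the background `gt`, its value on the cone). -/
structure PrimP (q : ℝ) (gt : Bg) (D : Set (ℝ × ℝ)) (n : ℕ) : Prop where
  be : TP q D n (fun p => Xf p.2 * gt.B p) (fun p => p.2 ^ 2 / z0F q - 1)
  Z : TP q D n gt.Z (fun p => z0F q * (2 * psY2 p.2))
  Dd : TP q D n (fun p => Xf p.2 * gt.dd p) (fun p => 2 * p.2 * Xf p.2 / z0F q)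
  bp : TP q D n (fun p => Xf p.2 ^ 2 * gt.Bp p)
      (fun p => 2 * p.2 * Xf p.2 / z0F q + 2 * p.2 * (p.2 ^ 2 / z0F q - 1))
  a : TP q D n (fun p => Xf p.2 * gt.wp p) (fun p => -2 * p.2)
  b : TP q D n (fun p => Xf p.2 ^ 2 * gt.wpp p) (fun p => -2 * Xf p.2 - 4 * p.2 ^ 2)
  e : TP q D n (fun p => Xf p.2 * Real.exp (-gt.w p)) (fun _ => q - 1)
  om : TP q D n (fun p => Xf p.2 * gt.W p) (fun _ => 0)

variable {w z : ℝ → ℝ} {gt : Bg} {D : Set (ℝ × ℝ)} {n : ℕ} {Ω G₁ : Fn}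

theorem BP.primP {q : ℕ} (h : BP q w z) (hD : DomOK D) (hC : DomC D) (hr : DevRep q w gt D n Ω G₁) :
    PrimP q gt D n :=
  ⟨(h.prim_XB hD hC hr).of_le (by omega), (h.prim_Z hD hC hr).of_le (by omega),
    (h.prim_Xdd hD hC hr).of_le (by omega), (h.prim_XXBp hD hC hr).of_le (by omega),
    (h.prim_Xwp hD hC hr).of_le (by omega), h.prim_XXwpp hD hC hr,
    (h.prim_Xew hD hC hr).of_le (by omega), (h.prim_XW hD hC hr).of_le (by omega)⟩

theorem TP.ent {q : ℝ} (hD : DomOK D) (hC : DomC D) {E P Pc : Fn} {c : ℝ} (hP : TP q D n P Pc)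
    (h1 : ∀ t < 0, ∀ y, E (t, y) = P (t, y)) (h2 : ∀ t, ∀ y ∈ Icc (19 / 20 : ℝ) 1, Pc (t, y) = c) :
    TS q D 0 n (wt q 1 8 0) (fun p => E p - c) :=
  TS.congr hD (fun t ht y => by rw [h1 t ht y])
    (TP.dev (by norm_num) hD (hC.mem hD) c (fun p _ y hy => h2 p.1 y hy) hP)

theorem psY2_cap {y : ℝ} (hy : y ∈ Icc (19 / 20 : ℝ) 1) : 2 * psY2 y = 1 / y ^ 2 := by
  have hy0 : y ≠ 0 := by
    have := hy.1
    intro h0
    rw [h0] at this
    norm_num at this
  unfold psY2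
  rw [psi1_eq_one hy.1]
  field_simp

theorem TP.X {q : ℝ} (hq : 100 ≤ q) (hD : DomOK D) : TP q D n (fun p => Xf p.2) (fun p => Xf p.2) :=
  TP.yfun hq hD (φ := Xf) (by unfold Xf; fun_prop)

theorem TP.y {q : ℝ} (hq : 100 ≤ q) (hD : DomOK D) : TP q D n (fun p => p.2) (fun p => p.2) :=
  TP.yfun hq hD (φ := fun y => y) contDiff_id

end

end Claimed.Agent.R324.Core
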