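/-
Row 324 (S0582), PDE core, module AP (architect helper263), part A7 (BgDev), file Dev/EntA:   the entries of the matrix 𝐦 (rows 0 and 1) of a background with the eight pairs `PrimP` deviate from the constants of the cone by O(𝔍)   (TS 0 n (wt 1 8 0)).
      Each entry is a polynomial in the regular primitives  a = X w', b = X² w'', Dd = X 𝖽, β = X B, β' = X² B', e = X e^{-w}, ω = X W, Z, X, y;   `TP.ent` (Dev/Ent0.lean).        SORRY-FREE.
-/
import Claimed.Agent.R324.Core.AP.Dev.Ent0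

set_option autoImplicit false

namespace Claimed.Agent.R324.Core

open Set Filter Topology
open scoped ContDiff

noncomputable section

variable {q : ℝ} {gt : Bg} {D : Set (ℝ × ℝ)} {n : ℕ}

theorem ap_cap_ne {y : ℝ} (hy : y ∈ Icc (19 / 20 : ℝ) 1) : y ≠ 0 := by
  have := hy.1
  intro h0
  rw [h0] at this
  norm_num at this

theorem PrimP.ent_00 (hq : 100 ≤ q) (hD : DomOK D) (hC : DomC D) (hp : PrimP q gt D n) :
    TS q D 0 n (wt q 1 8 0) (fun p => mF q gt 0 0 p - mCone q 0 0) := by
  refine TP.ent hD hC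
    (TP.const_mul hD (1 / (q + 1))
      (((TP.neg hD (hp.Z.mul hq hD (hp.a.mul hq hD hp.a))).sub hD
        (TP.const_mul hD (2 * q) ((TP.y hq hD).mul hq hD ((hp.Z.mul hq hD hp.Z).mul hq hD hp.Dd)))).add hD
        (TP.const_mul hD (2 * q) (hp.Z.mul hq hD ((TP.const_mul hD (q - 1) hp.be).add hD
          (TP.const_mul hD (q + 1) (TP.X hq hD))))))) ?_ ?_
  · intro t ht y
    simp only [mF, Bg.cf, Matrix.cons_val_zero]
    ring
  · intro t y hy
    have hy0 : y ≠ 0 := ap_cap_ne hy
    have h1 : q - 1 ≠ 0 := by intro h; linarith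
    have h2 : q + 1 ≠ 0 := by intro h; linarith
    simp only [mCone, Matrix.cons_val_zero, psY2_cap hy]
    unfold z0F Xf
    field_simp
    ring

theorem PrimP.ent_01 (hq : 100 ≤ q) (hD : DomOK D) (hC : DomC D) (hp : PrimP q gt D n) :
    TS q D 0 n (wt q 1 8 0) (fun p => mF q gt 0 1 p - mCone q 0 1) := by
  refine TP.ent hD hC
    (TP.const_mul hD (1 / (q + 1))
      (hp.Z.mul hq hD
        (((TP.const_mul hD (2 * q + 2) ((TP.y hq hD).mul hq hD hp.a)).add hD
          ((hp.Z.mul hq hD hp.Dd).mul hq hD hp.a)).sub hD (TP.const_mul hD 2 hp.b)))) ?_ ?_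
  · intro t ht y
    simp only [mF, Bg.cf, Matrix.cons_val_zero, Matrix.cons_val_one]
    ring
  · intro t y hy
    have hy0 : y ≠ 0 := ap_cap_ne hy
    have h1 : q - 1 ≠ 0 := by intro h; linarith
    have h2 : q + 1 ≠ 0 := by intro h; linarith
    simp only [mCone, Matrix.cons_val_zero, Matrix.cons_val_one, psY2_cap hy]
    unfold z0F Xf
    field_simp
    ring

theorem PrimP.ent_02 (hq : 100 ≤ q) (hD : DomOK D) (hC : DomC D) (hp : PrimP q gt D n) :
    TS q D 0 n (wt q 1 8 0) (fun p => mF q gt 0 2 p - mCone q 0 2) := by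
  refine TP.ent hD hC
    (TP.const_mul hD (q / (q + 1) / (q + 1))
      (hp.Z.mul hq hD
        (((TP.neg hD (hp.a.mul hq hD hp.a)).sub hD
          (TP.const_mul hD (q - 1) ((TP.y hq hD).mul hq hD (hp.Z.mul hq hD hp.Dd)))).sub hD
          (TP.const_mul hD (2 * (q - 1)) hp.be)))) ?_ ?_
  · intro t ht y
    simp only [mF, Bg.cf, Matrix.cons_val_zero, Matrix.cons_val_one, Matrix.cons_val_two, Matrix.head_cons, Matrix.tail_cons]
    ring
  · intro t y hy
    have hy0 : y ≠ 0 := ap_cap_ne hy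
    have h1 : q - 1 ≠ 0 := by intro h; linarith
    have h2 : q + 1 ≠ 0 := by intro h; linarith
    simp only [mCone, Matrix.cons_val_zero, Matrix.cons_val_one, Matrix.cons_val_two, Matrix.head_cons, Matrix.tail_cons, psY2_cap hy]
    unfold z0F Xf
    field_simp
    ring

theorem PrimP.ent_10 (hq : 100 ≤ q) (hD : DomOK D) (hC : DomC D) (hp : PrimP q gt D n) :
    TS q D 0 n (wt q 1 8 0) (fun p => mF q gt 1 0 p - mCone q 1 0) := by
  refine TP.ent hD hC
    (hp.Z.mul hq hD
      (((TP.const_mul hD (q + 1) ((TP.y hq hD).mul hq hD hp.a)).add hD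
        (TP.const_mul hD (1 / 2) ((hp.Z.mul hq hD hp.Dd).mul hq hD hp.a))).sub hD hp.b)) ?_ ?_
  · intro t ht y
    simp only [mF, Bg.cf, Matrix.cons_val_zero, Matrix.cons_val_one]
    ring
  · intro t y hy
    have hy0 : y ≠ 0 := ap_cap_ne hy
    have h1 : q - 1 ≠ 0 := by intro h; linarith
    have h2 : q + 1 ≠ 0 := by intro h; linarith
    simp only [mCone, Matrix.cons_val_zero, Matrix.cons_val_one, psY2_cap hy]
    unfold z0F Xf
    field_simp
    ring

theorem PrimP.ent_11 (hq : 100 ≤ q) (hD : DomOK D) (hC : DomC D) (hp : PrimP q gt D n) :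
    TS q D 0 n (wt q 1 8 0) (fun p => mF q gt 1 1 p - mCone q 1 1) := by
  refine TP.ent hD hC
    ((TP.const_mul hD 2 hp.e).sub hD (hp.Z.mul hq hD (hp.a.mul hq hD hp.a))) ?_ ?_
  · intro t ht y
    simp only [mF, Bg.cf, Matrix.cons_val_zero, Matrix.cons_val_one]
    ring
  · intro t y hy
    have hy0 : y ≠ 0 := ap_cap_ne hy
    have h1 : q - 1 ≠ 0 := by intro h; linarith
    have h2 : q + 1 ≠ 0 := by intro h; linarith
    simp only [mCone, Matrix.cons_val_zero, Matrix.cons_val_one, psY2_cap hy]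
    unfold z0F
    field_simp
    ring

theorem PrimP.ent_12 (hq : 100 ≤ q) (hD : DomOK D) (hC : DomC D) (hp : PrimP q gt D n) :
    TS q D 0 n (wt q 1 8 0) (fun p => mF q gt 1 2 p - mCone q 1 2) := by
  refine TP.ent hD hC
    (TP.const_mul hD (q / (q + 1))
      (hp.Z.mul hq hD
        ((TP.const_mul hD (1 / 2) ((hp.Z.mul hq hD hp.Dd).mul hq hD hp.a)).sub hD hp.b))) ?_ ?_
  · intro t ht y
    simp only [mF, Bg.cf, Matrix.cons_val_zero, Matrix.cons_val_one, Matrix.cons_val_two, Matrix.head_cons, Matrix.tail_cons]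
    ring
  · intro t y hy
    have hy0 : y ≠ 0 := ap_cap_ne hy
    have h1 : q - 1 ≠ 0 := by intro h; linarith
    have h2 : q + 1 ≠ 0 := by intro h; linarith
    simp only [mCone, Matrix.cons_val_zero, Matrix.cons_val_one, Matrix.cons_val_two, Matrix.head_cons, Matrix.tail_cons, psY2_cap hy]
    unfold z0F Xf
    field_simp
    ring

end

end Claimed.Agent.R324.Core
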