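/-
Row 324 (S0582), PDE core, module AP (architect helper263), part A7 (BgDev), file Dev/EntB:   row 2 of the matrix 𝐦 and the two scalar coefficients  y² Z,   y b̂ - X Z   of a background with the eight pairs `PrimP` deviate from the constants of the cone by O(𝔍).        As Dev/EntA.lean.        SORRY-FREE.
-/
import Claimed.Agent.R324.Core.AP.Dev.EntA

set_option autoImplicit false

namespace Claimed.Agent.R324.Core

open Set Filter Topology
open scoped ContDiff

noncomputable section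

variable {q : ℝ} {gt : Bg} {D : Set (ℝ × ℝ)} {n : ℕ}

theorem PrimP.ent_20 (hq : 100 ≤ q) (hD : DomOK D) (hC : DomC D) (hp : PrimP q gt D n) :
    TS q D 0 n (wt q 1 8 0) (fun p => mF q gt 2 0 p - mCone q 2 0) := by
  refine TP.ent hD hC
    ((TP.neg hD (hp.Z.mul hq hD (hp.a.mul hq hD hp.a))).sub hD
      (TP.const_mul hD (q - 1) ((hp.Z.mul hq hD hp.Z).mul hq hD
        (((TP.y hq hD).mul hq hD hp.bp).add hD
          (TP.const_mul hD 2 (hp.be.mul hq hD (hp.be.add hD (TP.X hq hD)))))))) ?_ ?_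
  · intro t ht y
    simp only [mF, Bg.cf, Matrix.cons_val_zero, Matrix.cons_val_one, Matrix.cons_val_two, Matrix.head_cons, Matrix.tail_cons]
    ring
  · intro t y hy
    have hy0 : y ≠ 0 := ap_cap_ne hy
    have h1 : q - 1 ≠ 0 := by intro h; linarith
    have h2 : q + 1 ≠ 0 := by intro h; linarith
    simp only [mCone, Matrix.cons_val_zero, Matrix.cons_val_one, Matrix.cons_val_two, Matrix.head_cons, Matrix.tail_cons, psY2_cap hy]
    unfold z0F Xf
    field_simp
    ring

theorem PrimP.ent_21 (hq : 100 ≤ q) (hD : DomOK D) (hC : DomC D) (hp : PrimP q gt D n) :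
    TS q D 0 n (wt q 1 8 0) (fun p => mF q gt 2 1 p - mCone q 2 1) := by
  refine TP.ent hD hC
    (hp.Z.mul hq hD
      ((TP.const_mul hD (-2) hp.b).add hD ((hp.Z.mul hq hD hp.Dd).mul hq hD hp.a))) ?_ ?_
  · intro t ht y
    simp only [mF, Bg.cf, Matrix.cons_val_zero, Matrix.cons_val_one, Matrix.cons_val_two, Matrix.head_cons, Matrix.tail_cons]
    ring
  · intro t y hy
    have hy0 : y ≠ 0 := ap_cap_ne hy
    have h1 : q - 1 ≠ 0 := by intro h; linarith
    have h2 : q + 1 ≠ 0 := by intro h; linarith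
    simp only [mCone, Matrix.cons_val_zero, Matrix.cons_val_one, Matrix.cons_val_two, Matrix.head_cons, Matrix.tail_cons, psY2_cap hy]
    unfold z0F Xf
    field_simp
    ring

theorem PrimP.ent_22 (hq : 100 ≤ q) (hD : DomOK D) (hC : DomC D) (hp : PrimP q gt D n) :
    TS q D 0 n (wt q 1 8 0) (fun p => mF q gt 2 2 p - mCone q 2 2) := by
  refine TP.ent hD hC
    (((TP.const_mul hD (1 / (q + 1))
      (((hp.Z.mul hq hD ((TP.const_mul hD (2 * (q - 1)) hp.be).sub hD
          (TP.const_mul hD (4 * (q + 1)) (TP.X hq hD)))).sub hD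
        (TP.const_mul hD q (hp.Z.mul hq hD (hp.a.mul hq hD hp.a)))).add hD
        (TP.const_mul hD (2 * q) ((TP.y hq hD).mul hq hD ((hp.Z.mul hq hD hp.Z).mul hq hD hp.Dd))))).sub hD
      (hp.Z.mul hq hD ((TP.const_mul hD 4 ((TP.y hq hD).mul hq hD (TP.y hq hD))).sub hD
        (TP.const_mul hD 2 (TP.X hq hD))))).sub hD
      (TP.const_mul hD (2 * (q - 1)) (((TP.y hq hD).mul hq hD (TP.y hq hD)).mul hq hD hp.Z))) ?_ ?_
  · intro t ht y
    simp only [mF, Bg.cf, Bg.bh, Matrix.cons_val_zero, Matrix.cons_val_one, Matrix.cons_val_two, Matrix.head_cons, Matrix.tail_cons]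
    ring
  · intro t y hy
    have hy0 : y ≠ 0 := ap_cap_ne hy
    have h1 : q - 1 ≠ 0 := by intro h; linarith
    have h2 : q + 1 ≠ 0 := by intro h; linarith
    simp only [mCone, Matrix.cons_val_zero, Matrix.cons_val_one, Matrix.cons_val_two, Matrix.head_cons, Matrix.tail_cons, psY2_cap hy]
    unfold z0F Xf
    field_simp
    ring

theorem PrimP.ent_Z (hq : 100 ≤ q) (hD : DomOK D) (hC : DomC D) (hp : PrimP q gt D n) :
    TS q D 0 n (wt q 1 8 0) (fun p => p.2 ^ 2 * gt.Z p - z0F q) := by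
  refine TP.ent (E := fun p => p.2 ^ 2 * gt.Z p) hD hC
    (((TP.y hq hD).mul hq hD (TP.y hq hD)).mul hq hD hp.Z) ?_ ?_
  · intro t ht y
    simp only []
    ring
  · intro t y hy
    have hy0 : y ≠ 0 := ap_cap_ne hy
    simp only [psY2_cap hy]
    field_simp

theorem PrimP.ent_bh (hq : 100 ≤ q) (hD : DomOK D) (hC : DomC D) (hp : PrimP q gt D n) :
    TS q D 0 n (wt q 1 8 0) (fun p => p.2 * gt.bh q p - Xf p.2 * gt.Z p - (q - 1)) := by
  refine TP.ent (E := fun p => p.2 * gt.bh q p - Xf p.2 * gt.Z p) hD hC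
    (((TP.const_mul hD (q - 1) (((TP.y hq hD).mul hq hD (TP.y hq hD)).mul hq hD hp.Z)).sub hD
      ((TP.y hq hD).mul hq hD
        (((TP.const_mul hD (-1 / 2) ((hp.Z.mul hq hD hp.Z).mul hq hD hp.Dd)).add hD
          (hp.Z.mul hq hD hp.a)).add hD hp.om))).sub hD ((TP.X hq hD).mul hq hD hp.Z)) ?_ ?_
  · intro t ht y
    simp only [Bg.bh, Bg.w1]
    ring
  · intro t y hy
    have hy0 : y ≠ 0 := ap_cap_ne hy
    have h1 : q - 1 ≠ 0 := by intro h; linarith
    have h2 : q + 1 ≠ 0 := by intro h; linarith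
    simp only [psY2_cap hy]
    unfold z0F Xf
    field_simp
    ring

/-- all entries. -/
theorem PrimP.ent_all (hq : 100 ≤ q) (hD : DomOK D) (hC : DomC D) (hp : PrimP q gt D n) (i k : Fin 3) :
    TS q D 0 n (wt q 1 8 0) (fun p => mF q gt i k p - mCone q i k) := by
  fin_cases i <;> fin_cases k
  · exact hp.ent_00 hq hD hC
  · exact hp.ent_01 hq hD hC
  · exact hp.ent_02 hq hD hC
  · exact hp.ent_10 hq hD hC
  · exact hp.ent_11 hq hD hC
  · exact hp.ent_12 hq hD hC
  · exact hp.ent_20 hq hD hC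
  · exact hp.ent_21 hq hD hC
  · exact hp.ent_22 hq hD hC

end

end Claimed.Agent.R324.Core
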