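/-
Row 324 (S0582), PDE core, module AP (architect helper263), part A7 (BgDev), file Dev/Main:   `PrimP.dev`:  a background with the eight pairs `PrimP` on  D = [-Λ₀,0) × [19/20,1]  (n = 2) satisfies `BgDev`  (Core/Bgd.lean).        SORRY-FREE.
-/
import Claimed.Agent.R324.Core.AP.Dev.EntB
import Claimed.Agent.R324.Core.AP.Cal.Conv

set_option autoImplicit false

namespace Claimed.Agent.R324.Core

open Set Filter Topology
open scoped ContDiff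

noncomputable section

variable {q : ℝ} {gt : Bg} {D : Set (ℝ × ℝ)} {n : ℕ}

theorem TS.tt_bound2 (hq : 100 ≤ q) (hD : DomOK D) {f : Fn} (h : TS q D 0 2 (wt q 1 8 0) f) :
    ∃ C : ℝ, 0 ≤ C ∧ ∀ p ∈ D, ∀ j ≤ 2, |(tt^[j] (sl f p.1)) p.2| ≤ C * JJ q p.1 p.2 := by
  obtain ⟨C0, hC0, h0⟩ := TS.tt_bound hq hD h (i := 0) (j := 0) le_rfl (by norm_num)
  obtain ⟨C1, hC1, h1⟩ := TS.tt_bound hq hD h (i := 0) (j := 1) le_rfl (by norm_num)
  obtain ⟨C2, hC2, h2⟩ := TS.tt_bound hq hD h (i := 0) (j := 2) le_rfl (by norm_num)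
  refine ⟨C0 + C1 + C2, by positivity, fun p hp j hj => ?_⟩
  have hJ : 0 < JJ q p.1 p.2 := by
    rw [← wt_JJ]
    exact wt_pos hq hD hp
  have e0 := h0 p hp
  have e1 := h1 p hp
  have e2 := h2 p hp
  simp only [Function.iterate_zero, id, pow_zero, div_one, wt_JJ] at e0 e1 e2
  interval_cases j
  · refine e0.trans ?_
    nlinarith [mul_nonneg hC1 hJ.le, mul_nonneg hC2 hJ.le]
  · refine e1.trans ?_
    nlinarith [mul_nonneg hC0 hJ.le, mul_nonneg hC2 hJ.le]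
  · refine e2.trans ?_
    nlinarith [mul_nonneg hC0 hJ.le, mul_nonneg hC1 hJ.le]

theorem PrimP.dev (hq : 100 ≤ q) {Λ₀ : ℝ} (hΛ : 0 < Λ₀) (hΛ1 : Λ₀ ≤ 1)
    (hp : PrimP q gt (Dm Λ₀ (Icc (19 / 20 : ℝ) 1)) 2) : BgDev q gt := by
  have hD : DomOK (Dm Λ₀ (Icc (19 / 20 : ℝ) 1)) :=
    domOK_Dm hΛ1 (fun y hy => ⟨by linarith [hy.1], hy.2⟩)
  have hC : DomC (Dm Λ₀ (Icc (19 / 20 : ℝ) 1)) := fun p hp => hp.2.1
  obtain ⟨CZ, hCZ, hZ⟩ := TS.tt_bound2 hq hD (hp.ent_Z hq hD hC)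
  obtain ⟨Cb, hCb, hb⟩ := TS.tt_bound2 hq hD (hp.ent_bh hq hD hC)
  have hm := fun i k => TS.tt_bound2 hq hD (hp.ent_all hq hD hC i k)
  choose Cm hCm hm using hm
  refine ⟨Λ₀, CZ + Cb + ∑ i, ∑ k, Cm i k, hΛ, fun t ht y hy j hj => ?_⟩
  have hmem : ((t, y) : ℝ × ℝ) ∈ Dm Λ₀ (Icc (19 / 20 : ℝ) 1) := ⟨ht, hy⟩
  have hJ : 0 < JJ q t y := by
    have := wt_pos (a := 1) (b := 8) (c := 0) hq hD hmem
    rwa [wt_JJ] at this
  have hS : 0 ≤ ∑ i, ∑ k, Cm i k := Finset.sum_nonneg fun i _ => Finset.sum_nonneg fun k _ => hCm i k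
  refine ⟨?_, ?_, fun i k => ?_⟩
  · refine (hZ (t, y) hmem j hj).trans ?_
    exact mul_le_mul_of_nonneg_right (by linarith) hJ.le
  · refine (hb (t, y) hmem j hj).trans ?_
    exact mul_le_mul_of_nonneg_right (by linarith) hJ.le
  · refine (hm i k (t, y) hmem j hj).trans ?_
    have h1 : Cm i k ≤ ∑ k', Cm i k' :=
      Finset.single_le_sum (f := fun k' => Cm i k') (fun k' _ => hCm i k') (Finset.mem_univ k)
    have h2 : ∑ k', Cm i k' ≤ ∑ i', ∑ k', Cm i' k' :=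
      Finset.single_le_sum (f := fun i' => ∑ k', Cm i' k')
        (fun i' _ => Finset.sum_nonneg fun k' _ => hCm i' k') (Finset.mem_univ i)
    exact mul_le_mul_of_nonneg_right (by linarith) hJ.le

end

end Claimed.Agent.R324.Core
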