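/-
Row 324 (S0582), PDE core, module AP (architect helper263), part A7 (BgDev), file Dev/Rep:   the representation `DevRep` (Dev/Prim.lean) of the reference background  gt = bgR q (bgA q w z)  on late domains near the north pole (`DomTR D`: -1/1000 ≤ t < 0, 19/20 ≤ y ≤ 1), with
          Ω = χ ω  (ω = rOm),          G₁ = -(1 - χ) η Φ₁(η)  (η = rEta),
   and the field   `BP.bgA_dev : BgDev q (bgR q (bgA q w z))`   of `BgGood`.       Inputs: AP-R (helper390): RChi, RTs, RRep, RGl.        SORRY-FREE (modulo the imported files).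
-/
import Claimed.Agent.R324.Core.AP.Dev.Main
import Claimed.Agent.R324.Core.AP.RRep
import Claimed.Agent.R324.Core.AP.RGl

set_option autoImplicit false

namespace Claimed.Agent.R324.Core

open Set Filter Topology
open scoped ContDiff

noncomputable section

variable {q : ℕ} {w z : ℝ → ℝ} {D : Set (ℝ × ℝ)}

theorem ap_dev_G_eq (χ η : ℝ) : 1 + -(1 - χ) * (η * Ph1 η) = χ + (1 - χ) * Real.exp (-η) := by
  rw [ph1_mul]
  ring

theorem BP.devRep (h : BP q w z) (hD : DomTR D) (n : ℕ) :
    DevRep q w (bgR q (bgA q w z)) D n (fun p => chiC p * rOm q w p)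
      (fun p => -(1 - chiC p) * (rEta q z p * Ph1 (rEta q z p))) := by
  have hq := h.hqR
  have h1χ : TS q D 0 (n + 2) (wt q 0 0 0) (fun p => -(1 - chiC p)) :=
    TS.neg hD.ok (TS.sub hD.ok (TS.one_wt.1 (TS.const 1)) (ts_chiC0 hq hD.dr))
  refine ⟨h.sm_R, TS.chi_mul0 hq hD.dr (h.ts_rOm hD.ok hD.dn (by norm_num)), ?_, ?_, ?_, ?_, ?_, ?_⟩
  · exact ap_ts_cast (by norm_num) (by norm_num) (by norm_num)
      (TS.mul_wt hq hD.ok h1χ (h.ts_etaPh hD.ok hD.dn (by norm_num)))
  · intro t _ y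
    have e := ap_dev_G_eq (chiC (t, y)) (rEta q z (t, y))
    have h0 := chiC_nonneg (t, y)
    have h1 := chiC_le_one (t, y)
    have hE := Real.exp_pos (-rEta q z (t, y))
    rw [e]
    rcases eq_or_lt_of_le h0 with h0' | h0'
    · rw [← h0']
      simp only [zero_add, sub_zero, one_mul]
      exact hE.ne'
    · have : 0 ≤ (1 - chiC (t, y)) * Real.exp (-rEta q z (t, y)) := mul_nonneg (by linarith) hE.le
      exact (by linarith : 0 < chiC (t, y) + (1 - chiC (t, y)) * Real.exp (-rEta q z (t, y))).ne'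
  · obtain ⟨K, hK, hb⟩ := (h.ts_rEta0 (m := 0) (n := 0) hD.ok hD.dn (by norm_num)).bd.bd0
    refine ⟨Real.exp (-K), Real.exp_pos _, fun p hp => ?_⟩
    have e := ap_dev_G_eq (chiC p) (rEta q z p)
    have h0 := chiC_nonneg p
    have h1 := chiC_le_one p
    have hη : rEta q z p ≤ K := by
      have := hb p hp
      rw [mul_one] at this
      exact (le_abs_self _).trans this
    have hE : Real.exp (-K) ≤ Real.exp (-rEta q z p) := Real.exp_le_exp.2 (by linarith)
    have hE1 : Real.exp (-K) ≤ 1 := Real.exp_le_one_iff.2 (by linarith)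
    rw [e]
    nlinarith [mul_le_mul_of_nonneg_left hE (by linarith : 0 ≤ 1 - chiC p),
      mul_le_mul_of_nonneg_left hE1 h0]
  · have hW : TS q D 0 (n + 1) (wt q 1 7 0) (bgA q w z).W := h.gts_W hD.ok (by norm_num)
    exact TS.congr hD.ok (fun t _ y => rep_W q (bgA q w z) (t, y))
      (TS.sub hD.ok hW (TS.chi_mul0 hq hD.dr hW))
  · intro p hp y hy
    obtain ⟨h1, h2, _, _⟩ := hD p hp
    rw [h.rep_w h2 (by linarith) y]
    have : (bgA q w z).w (p.1, y) = psi1 y * wtip q w (p.1, y) := rfl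
    rw [this, psi1_eq_one hy.1, one_mul]
  · intro p hp y hy
    obtain ⟨h1, h2, _, _⟩ := hD p hp
    rw [h.rep_den h2 (by linarith) hy.1]
    ring

theorem BP.bgA_dev (h : BP q w z) : BgDev q (bgR q (bgA q w z)) :=
  PrimP.dev h.hqR (by norm_num) (by norm_num)
    (h.primP domTR_Dm.ok (fun _ hp => hp.2.1) (h.devRep domTR_Dm 2))

end

end Claimed.Agent.R324.Core
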